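import Crest.Agent.R296.Tow_281
import Crest.Agent.R296.IfA2_378

/-!
# Row 296, block A, leaf A-TOW, version 2 (interface IfA2_378): transport and tower (helper281)

`stTow : StS1 → StH → StTow` (v2)
-/

set_option autoImplicit false

universe u v w u' v'

namespace Crest.Agent.R296.Tow2x281

open IfAx378 (IsGood IsLcm Disj Cons Filt LAct S1Ext S2Data S2Ext StS1)
open TowTx281 (isGood_tr dvd_tr cons_tr cons_comp S1Id s1_tr lmap)
open TowGx281 (Om GM Sub Le rangeGM rangeEq embed Dir union sub_union le_union good_union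
  small_union IsS1 exS1)
open Towx281 (base base_good base_small base_ne)
open IfA2x378

/-! ## (S2) transport -/

section s2

/-- transport of a filter -/
def fmap {P : Type u} {Q : Type v} [Monoid P] [Monoid Q] (e : P ≃* Q) (C : Filt P) :
    Filt Q where
  S := {q | e.symm q ∈ C.S}
  one := by simpa using C.one
  up x s h hs := C.up (e.symm x) (e.symm s) ((dvd_tr e.symm).2 h) hs
  dir s t hs ht := by
    obtain ⟨m, hm, h1, h2⟩ := C.dir _ _ hs ht
    refine ⟨e m, by simpa using hm, ?_, ?_⟩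
    · rw [← dvd_tr e.symm]; simpa using h1
    · rw [← dvd_tr e.symm]; simpa using h2

variable {P : Type u} {P' : Type v} {Q : Type u'} {Q' : Type v'}
  [Monoid P] [Monoid P'] [Monoid Q] [Monoid Q']

theorem fmap_S (e : P ≃* Q) (C : Filt P) (p : P) : e p ∈ (fmap e C).S ↔ p ∈ C.S := by
  simp [fmap]

theorem fmap_all (e : P ≃* Q) (C : Filt P) (z : P) :
    (∀ s ∈ (fmap e C).S, s ∣ e z) ↔ ∀ s ∈ C.S, s ∣ z := by
  constructor
  · intro h s hs
    exact (dvd_tr e).1 (h _ ((fmap_S e C s).2 hs))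
  · intro h s hs
    have := (dvd_tr e).2 (h _ hs)
    simpa using this

/-- transport of a datum -/
def dmap (e : P ≃* Q) (d : Datum P) : Datum Q where
  F := fmap e d.F
  a := e d.a
  b := e d.b
  a_ne := by simpa using d.a_ne
  b_mem := (fmap_all e _ _).2 d.b_mem
  ex_p := by
    obtain ⟨p, h1, h2, h3⟩ := d.ex_p
    exact ⟨e p, (fmap_all e _ _).2 h1, (dvd_tr e).2 h2, fun h => h3 ((dvd_tr e).1 h)⟩

theorem fmap_symm (e : P ≃* Q) (C : Filt P) : fmap e.symm (fmap e C) = C := by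
  have h1 : (fmap e.symm (fmap e C)).S = C.S := by
    ext x; simp [fmap]
  cases C
  simp [fmap] at h1 ⊢

theorem dmap_symm (e : P ≃* Q) (d : Datum P) : dmap e.symm (dmap e d) = d := by
  ext1
  · exact fmap_symm e d.F
  · simp [dmap]
  · simp [dmap]

/-- transport of a letter -/
def ymap (e : P ≃* Q) (l : Ltr P) : Ltr Q where
  d := dmap e l.d
  s := e l.s
  r := e l.r
  hr := (fmap_S e _ _).2 l.hr

theorem ymap_symm (e : P ≃* Q) (l : Ltr P) : ymap e.symm (ymap e l) = l := by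
  obtain ⟨d, s, r, hr⟩ := l
  have := dmap_symm e d
  simp only [ymap]
  simp only [MulEquiv.symm_apply_apply]
  congr

theorem ymap_symm' (e : P ≃* Q) (l : Ltr Q) : ymap e (ymap e.symm l) = l := by
  simpa using ymap_symm e.symm l

theorem ymap_eqv1 {P : Type u} {Q : Type v} [Monoid P] [Monoid Q] (e : P ≃* Q) (l l' : Ltr P)
    (h : l.Eqv l') : (ymap e l).Eqv (ymap e l') := by
  obtain ⟨h1, t, t', h2, h3, h4⟩ := h
  refine ⟨by simp [ymap, h1], e t, e t', ?_, ?_, ?_⟩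
  · simp [ymap, ← map_mul, h2]
  · simp [ymap, ← map_mul, h3]
  · simp only [ymap, dmap, ← map_mul]
    exact (fmap_S e _ _).2 h4

theorem ymap_eqv (e : P ≃* Q) (l l' : Ltr P) : (ymap e l).Eqv (ymap e l') ↔ l.Eqv l' := by
  refine ⟨fun h => ?_, ymap_eqv1 e l l'⟩
  simpa [ymap_symm] using ymap_eqv1 e.symm _ _ h

/-- (S2) step with all data -/
def S2Id {P : Type u} {P' : Type v} [Monoid P] [Monoid P'] (ι : P →* P') : Prop :=
  ∃ (y : Ltr P → P') (len : P' → ℕ), S2All ι y len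

theorem s2_tr (ι : P →* P') (ι' : Q →* Q') (e : P ≃* Q) (e' : P' ≃* Q')
    (hc : ∀ p, e' (ι p) = ι' (e p)) (h : S2Id ι') : S2Id ι := by
  obtain ⟨y, len, h⟩ := h
  have hn : ∀ (l : Ltr P) (x : P'), ¬ ι l.d.a ∣ x ↔ ¬ ι' (ymap e l).d.a ∣ e' x := by
    intro l x
    rw [← dvd_tr e', hc]; rfl
  refine ⟨fun l => e'.symm (y (ymap e l)), fun w => len (e' w), ⟨isGood_tr e' h.good,
    cons_tr ι ι' e e' hc h.cons, ?_, ?_, ?_, ?_, ?_, ?_, ?_, ?_, ?_⟩⟩
  · intro l l'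
    rw [← ymap_eqv e, h.eqv]
    simp
  · intro p l
    apply e'.injective
    rw [map_mul, hc]
    simp only [MulEquiv.apply_symm_apply]
    rw [h.act]
    congr 1
    simp [ymap, Ltr.smul]
  · intro l x hx
    apply e'.injective
    rw [map_mul, hc, hc]
    simp only [MulEquiv.apply_symm_apply]
    have := h.rel (ymap e l) (e x) (by simp [ymap, dmap, hx])
    simpa [ymap, dmap] using this
  · intro p
    simp [hc, h.len_ι]
  · intro p w
    simp [hc, h.len_mul]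
  · intro l x hx
    have := h.len_y (ymap e l) (e' x) ((hn l x).1 hx)
    simpa using this
  · intro w
    rcases h.nf (e' w) with ⟨p, hp⟩ | ⟨l, x, h1, h2⟩
    · left
      refine ⟨e.symm p, e'.injective ?_⟩
      rw [hp, hc]; simp
    · right
      refine ⟨ymap e.symm l, e'.symm x, e'.injective ?_, ?_⟩
      · rw [h1]; simp [ymap_symm']
      · rw [hn, ymap_symm']
        simpa using h2
  · intro l x p hx hp
    apply h.new (ymap e l) (e' x) (e p) ((hn l x).1 hx)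
    rw [← hc, ← hp]; simp
  · intro l x l' x' hx hx' hh
    obtain ⟨h1, h2⟩ := h.uniq (ymap e l) (e' x) (ymap e l') (e' x') ((hn l x).1 hx)
      ((hn l' x').1 hx') (by simpa using congrArg e' hh)
    exact ⟨(ymap_eqv e _ _).1 h1, e'.injective h2⟩

end s2

/-! ## the steps -/

/-- `G ≤ G'` is an (S2) step -/
def IsS2 (G G' : GM) : Prop := ∃ h : Sub G G', S2Id h.incl

theorem exS2 (H2 : StH) (G : GM) (hs : Small.{0} G.X) (hG : IsGood G.X) :
    ∃ G', Le G G' ∧ Small.{0} G'.X ∧ IsGood G'.X ∧ IsS2 G G' := by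
  let e : G.X ≃* Shrink.{0} G.X := Shrink.mulEquiv.symm
  obtain ⟨P', _, ι, y, len, h⟩ := H2 (Shrink.{0} G.X) (isGood_tr e.symm hG)
  obtain ⟨G', hS, e', hs', he'⟩ := embed G P' (ι.comp e.toMonoidHom) (h.cons.inj.comp e.injective)
  have hc : ∀ p, e' (hS.incl p) = ι (e p) := he'
  exact ⟨G', ⟨hS, cons_tr _ ι e e' hc h.cons⟩, hs', isGood_tr e' h.good, hS,
    s2_tr hS.incl ι e e' hc ⟨y, len, h⟩⟩

/-! ## the recursion -/

section rec

variable (H1 : StS1) (H2 : StH)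

open Classical in
/-- one step -/
noncomputable def step (β : Ordinal.{0}) (G : GM) : GM :=
  if h : Small.{0} G.X ∧ IsGood G.X then
    (if β % 2 = 0 then (exS1 H1 (Fin 3) G h.1 h.2).choose else (exS2 H2 G h.1 h.2).choose)
  else G

theorem step_spec (β : Ordinal.{0}) (G : GM) (h1 : Small.{0} G.X) (h2 : IsGood G.X) :
    Le G (step H1 H2 β G) ∧ Small.{0} (step H1 H2 β G).X ∧ IsGood (step H1 H2 β G).X ∧
    (β % 2 = 0 → IsS1 (Fin 3) G (step H1 H2 β G)) ∧ (β % 2 = 1 → IsS2 G (step H1 H2 β G)) := by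
  by_cases hβ : β % 2 = 0
  · have e : step H1 H2 β G = (exS1 H1 (Fin 3) G h1 h2).choose := by
      unfold step
      rw [dif_pos ⟨h1, h2⟩, if_pos hβ]
    rw [e]
    obtain ⟨h3, h4, h5, h6⟩ := (exS1 H1 (Fin 3) G h1 h2).choose_spec
    refine ⟨h3, h4, h5, fun _ => h6, fun h => ?_⟩
    rw [hβ] at h
    exact absurd h zero_ne_one
  · have e : step H1 H2 β G = (exS2 H2 G h1 h2).choose := by
      unfold step
      rw [dif_pos ⟨h1, h2⟩, if_neg hβ]
    rw [e]
    obtain ⟨h3, h4, h5, h6⟩ := (exS2 H2 G h1 h2).choose_spec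
    exact ⟨h3, h4, h5, fun h => absurd h hβ, fun _ => h6⟩

open Classical in
/-- the chain -/
noncomputable def F (β : Ordinal.{0}) : GM :=
  Ordinal.limitRecOn β base (fun β G => step H1 H2 β G)
    (fun β hβ f => if h : Dir (fun γ : Set.Iio β => f γ.1 γ.2) then union h ⟨0, hβ.pos⟩ else base)

theorem F_zero : F H1 H2 0 = base := Ordinal.limitRecOn_zero _ _ _

theorem F_succ (β : Ordinal.{0}) : F H1 H2 (β + 1) = step H1 H2 β (F H1 H2 β) :=
  Ordinal.limitRecOn_add_one _ _ _ _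

open Classical in
theorem F_lim (β : Ordinal.{0}) (hβ : Order.IsSuccLimit β)
    (h : Dir (fun γ : Set.Iio β => F H1 H2 γ.1)) : F H1 H2 β = union h ⟨0, hβ.pos⟩ := by
  have h' := Ordinal.limitRecOn_limit (motive := fun _ => GM) β base
    (fun β G => step H1 H2 β G)
    (fun β hβ f => if h : Dir (fun γ : Set.Iio β => f γ.1 γ.2) then union h ⟨0, hβ.pos⟩ else base) hβ
  refine Eq.trans h' ?_
  exact dif_pos h

theorem F_inv (β : Ordinal.{0}) :
    Small.{0} (F H1 H2 β).X ∧ IsGood (F H1 H2 β).X ∧ ∀ γ ≤ β, Le (F H1 H2 γ) (F H1 H2 β) := by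
  induction β using Ordinal.limitRecOn with
  | zero =>
    rw [F_zero]
    refine ⟨base_small, base_good, fun γ hγ => ?_⟩
    have : γ = 0 := le_antisymm hγ zero_le
    rw [this, F_zero]
    exact Le.refl _
  | add_one β ih =>
    obtain ⟨h1, h2, h3⟩ := ih
    obtain ⟨h4, h5, h6, -, -⟩ := step_spec H1 H2 β _ h1 h2
    rw [← F_succ] at h4 h5 h6
    refine ⟨h5, h6, fun γ hγ => ?_⟩
    rcases hγ.lt_or_eq with h | rfl
    · exact (h3 γ (Order.lt_add_one_iff.1 h)).trans h4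
    · exact Le.refl _
  | limit β hβ ih =>
    have hd : Dir (fun γ : Set.Iio β => F H1 H2 γ.1) := by
      rintro ⟨γ, hγ⟩ ⟨δ, hδ⟩
      rcases le_total γ δ with h | h
      · exact ⟨⟨δ, hδ⟩, (ih δ hδ).2.2 γ h, Le.refl _⟩
      · exact ⟨⟨γ, hγ⟩, Le.refl _, (ih γ hγ).2.2 δ h⟩
    rw [F_lim H1 H2 β hβ hd]
    refine ⟨small_union hd _ (fun γ => (ih γ.1 γ.2).1), good_union hd _
      (fun γ => (ih γ.1 γ.2).2.1), fun γ hγ => ?_⟩
    rcases hγ.lt_or_eq with h | rfl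
    · exact le_union hd ⟨0, hβ.pos⟩ ⟨γ, h⟩
    · rw [F_lim H1 H2 γ hβ hd]
      exact Le.refl _

theorem F_dir : Dir (F H1 H2) := by
  intro γ δ
  rcases le_total γ δ with h | h
  · exact ⟨δ, (F_inv H1 H2 δ).2.2 γ h, Le.refl _⟩
  · exact ⟨γ, Le.refl _, (F_inv H1 H2 γ).2.2 δ h⟩

/-- the whole monoid -/
noncomputable def FU : GM := union (F_dir H1 H2) 0

/-- `P_β` -/
noncomputable def A (β : Ordinal.{0}) : Submonoid (FU H1 H2).X where
  carrier := {p | p.1 ∈ (F H1 H2 β).X}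
  one_mem' := by
    change (union (F_dir H1 H2) 0).o ∈ (F H1 H2 β).X
    rw [(sub_union (F_dir H1 H2) 0 β).o]
    exact (F H1 H2 β).o_mem
  mul_mem' := by
    intro x y hx hy
    change (union (F_dir H1 H2) 0).op x.1 y.1 ∈ (F H1 H2 β).X
    rw [(sub_union (F_dir H1 H2) 0 β).op _ hx _ hy]
    exact (F H1 H2 β).op_mem _ hx _ hy

/-- `A β` is `F β` -/
noncomputable def eA (β : Ordinal.{0}) : A H1 H2 β ≃* (F H1 H2 β).X where
  toFun x := ⟨x.1.1, x.2⟩
  invFun x := ⟨⟨x.1, (sub_union (F_dir H1 H2) 0 β).sub x.2⟩, x.2⟩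
  left_inv _ := rfl
  right_inv _ := rfl
  map_mul' x y := Subtype.ext ((sub_union (F_dir H1 H2) 0 β).op _ x.2 _ y.2)

theorem A_mono : Monotone (A H1 H2) := by
  intro γ β h x hx
  exact ((F_inv H1 H2 β).2.2 γ h).choose.sub hx

theorem A_s1 (β : Ordinal.{0}) (hβ : β % 2 = 0) :
    S1Id (Fin 3) (Submonoid.inclusion (A_mono H1 H2 (Order.le_succ β))) := by
  obtain ⟨h1, h2, h3⟩ := F_inv H1 H2 β
  obtain ⟨-, -, -, h, -⟩ := step_spec H1 H2 β _ h1 h2
  obtain ⟨hs, h⟩ := h hβ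
  have e : F H1 H2 (Order.succ β) = step H1 H2 β (F H1 H2 β) := F_succ H1 H2 β
  revert hs h
  rw [← e]
  intro hs h
  exact s1_tr _ _ hs.incl (eA H1 H2 β) (eA H1 H2 (Order.succ β)) (fun p => rfl) h

theorem A_s2 (β : Ordinal.{0}) (hβ : β % 2 = 1) :
    S2Id (Submonoid.inclusion (A_mono H1 H2 (Order.le_succ β))) := by
  obtain ⟨h1, h2, h3⟩ := F_inv H1 H2 β
  obtain ⟨-, -, -, -, h⟩ := step_spec H1 H2 β _ h1 h2
  obtain ⟨hs, h⟩ := h hβ
  have e : F H1 H2 (Order.succ β) = step H1 H2 β (F H1 H2 β) := F_succ H1 H2 β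
  revert hs h
  rw [← e]
  intro hs h
  exact s2_tr _ hs.incl (eA H1 H2 β) (eA H1 H2 (Order.succ β)) (fun p => rfl) h

theorem A_f0 : ∃ f : (FU H1 H2).X, f ∈ A H1 H2 0 ∧ f ≠ 1 := by
  obtain ⟨f, hf⟩ : ∃ f : (F H1 H2 0).X, f ≠ 1 := by
    rw [F_zero]; exact base_ne
  refine ⟨((eA H1 H2 0).symm f).1, ((eA H1 H2 0).symm f).2, fun h => hf ?_⟩
  have h' : (eA H1 H2 0).symm f = 1 := Subtype.ext h
  have := congrArg (eA H1 H2 0) h'
  rwa [MulEquiv.apply_symm_apply, map_one (eA H1 H2 0)] at this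

theorem A_cons (β : Ordinal.{0}) : Cons (A H1 H2 β).subtype := by
  obtain ⟨s, c⟩ := le_union (F_dir H1 H2) 0 β
  exact cons_tr _ s.incl (eA H1 H2 β) (MulEquiv.refl _) (fun p => rfl) c

theorem A_lim (β : Ordinal.{0}) (hβ : Order.IsSuccLimit β) (p : (FU H1 H2).X)
    (hp : p ∈ A H1 H2 β) : ∃ γ < β, p ∈ A H1 H2 γ := by
  have hd : Dir (fun γ : Set.Iio β => F H1 H2 γ.1) := by
    rintro ⟨γ, hγ⟩ ⟨δ, hδ⟩
    rcases le_total γ δ with h | h
    · exact ⟨⟨δ, hδ⟩, (F_inv H1 H2 δ).2.2 γ h, Le.refl _⟩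
    · exact ⟨⟨γ, hγ⟩, Le.refl _, (F_inv H1 H2 γ).2.2 δ h⟩
  have h : p.1 ∈ (F H1 H2 β).X := hp
  rw [F_lim H1 H2 β hβ hd] at h
  obtain ⟨⟨γ, hγ⟩, h⟩ := Set.mem_iUnion.1 h
  exact ⟨γ, hγ, h⟩

/-- LEAF A-TOW, data form -/
theorem tower : Nonempty (Tower (FU H1 H2).X) := by
  classical
  obtain ⟨f0, hf0, hf0'⟩ := A_f0 H1 H2
  have h1 : ∀ β : Ordinal.{0}, ∃ κ : LAct (A H1 H2 β) (Fin 3) → (Fin 3) →
      A H1 H2 (Order.succ β), β % 2 = 0 → S1Ext (fun i => i)
        (Submonoid.inclusion (A_mono H1 H2 (Order.le_succ β))) κ := by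
    intro β
    by_cases hβ : β % 2 = 0
    · obtain ⟨κ, h⟩ := A_s1 H1 H2 β hβ
      exact ⟨κ, fun _ => h⟩
    · exact ⟨fun _ _ => 1, fun h => absurd h hβ⟩
  have h2 : ∀ β : Ordinal.{0}, ∃ (y : Ltr (A H1 H2 β) → A H1 H2 (Order.succ β))
      (len : A H1 H2 (Order.succ β) → ℕ), β % 2 = 1 → S2All
        (Submonoid.inclusion (A_mono H1 H2 (Order.le_succ β))) y len := by
    intro β
    by_cases hβ : β % 2 = 1
    · obtain ⟨y, len, h⟩ := A_s2 H1 H2 β hβ
      exact ⟨y, len, fun _ => h⟩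
    · exact ⟨fun _ => 1, fun _ => 0, fun h => absurd h hβ⟩
  choose κ hκ using h1
  choose y len hy using h2
  exact ⟨
    { good := good_union (F_dir H1 H2) 0 (fun β => (F_inv H1 H2 β).2.1)
      A := A H1 H2
      mono := A_mono H1 H2
      small := fun β => by
        have := (F_inv H1 H2 β).1
        exact small_map (eA H1 H2 β).toEquiv
      cons := A_cons H1 H2
      exh := fun p => by
        have h : p.1 ∈ ⋃ β, (F H1 H2 β).X := p.2
        obtain ⟨β, hβ⟩ := Set.mem_iUnion.1 h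
        exact ⟨β, hβ⟩
      lim := A_lim H1 H2
      f0 := f0
      f0_mem := hf0
      f0_ne := hf0'
      κ := κ
      s1 := hκ
      y := y
      len := len
      s2 := hy }⟩

end rec

/-- LEAF A-TOW -/
theorem stTow (H1 : StS1) (H2 : StH) : StTow := ⟨_, inferInstance, tower H1 H2⟩

end Crest.Agent.R296.Tow2x281
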